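import Vale.Agent.P197.Extreme.Parts
import Vale.Agent.P197.SymChar.KostkaPos
import Vale.Agent.P197.Littlewood

/-!
# Constituents of an induced product

`addP a b`, `unionP a b` and one more shape for `|b| = 1` occur in `Ind (χ^a ⊗ χ^b)`.
-/

open Finset Equiv

namespace Vale.Agent.P197.Extreme

open SymChar Littlewood

/-- The pairing of `c` with `χ^A ⊗ χ^B` on the Young subgroup. -/
def pairing {ka kb m N₀ N₁ : ℕ} (C : Fin m → ℤ) (A : Fin N₀ → ℤ) (B : Fin N₁ → ℤ) : ℤ :=
  ∑ x : Perm (Fin ka) × Perm (Fin kb),
    chi C (Perm.sumCongr x.1 x.2) * chi A x.1 * chi B x.2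

/-- The sum over all splittings is a multiple of the pairing. -/
theorem sum_mul_splitSum {ka kb m N₀ N₁ : ℕ} (C : Fin m → ℤ) {A : Fin N₀ → ℤ}
    (B : Fin N₁ → ℤ) (hA : IsBeta ka A) :
    ∑ σ : Perm (Fin (ka + kb)), chi C σ * splitSum A B σ =
      (#((univ : Finset (Finset (Fin (ka + kb)))).filter fun P => #P = ka) : ℤ) *
        pairing (ka := ka) (kb := kb) C A B := by
  classical
  simp only [splitSum, mul_sum]
  rw [sum_comm, ← nsmul_eq_mul, ← sum_const, sum_filter]
  refine sum_congr rfl fun P _ => ?_
  by_cases hP : #P = ka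
  swap
  · rw [if_neg hP]
    refine sum_eq_zero fun σ _ => ?_
    split_ifs with h
    · rw [chi_eq_zero_of_sum_ne A]
      · ring
      · rw [hA.total, Fintype.card_coe]
        omega
    · ring
  rw [if_pos hP]
  let ψA : Fin ka ≃ {x // x ∈ P} := Fintype.equivOfCardEq (by simp [hP])
  let ψB : Fin kb ≃ {x // x ∉ P} := Fintype.equivOfCardEq (by
    rw [Fintype.card_subtype_compl, Fintype.card_coe, hP, Fintype.card_fin, Fintype.card_fin]
    omega)
  let E : Fin ka ⊕ Fin kb ≃ Fin (ka + kb) :=
    (Equiv.sumCongr ψA ψB).trans (Equiv.sumCompl _)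
  let F : Perm (Fin ka) × Perm (Fin kb) → Perm (Fin (ka + kb)) := fun x =>
    E.permCongr (Perm.sumCongr x.1 x.2)
  have hFl : ∀ x i, F x (ψA i) = (ψA (x.1 i) : Fin (ka + kb)) := by
    intro x i
    have e : ((ψA i : {x // x ∈ P}) : Fin (ka + kb)) = E (Sum.inl i) := rfl
    rw [e]
    simp only [F, Equiv.permCongr_apply, Equiv.symm_apply_apply]
    rfl
  have hFr : ∀ x i, F x (ψB i) = (ψB (x.2 i) : Fin (ka + kb)) := by
    intro x i
    have e : ((ψB i : {x // x ∉ P}) : Fin (ka + kb)) = E (Sum.inr i) := rfl
    rw [e]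
    simp only [F, Equiv.permCongr_apply, Equiv.symm_apply_apply]
    rfl
  have hstab : ∀ x, ∀ y, F x y ∈ P ↔ y ∈ P := by
    intro x y
    by_cases hy : y ∈ P
    · obtain ⟨i, hi⟩ := ψA.surjective ⟨y, hy⟩
      have := hFl x i
      rw [hi] at this
      simp [this, hy]
    · obtain ⟨i, hi⟩ := ψB.surjective ⟨y, hy⟩
      have := hFr x i
      rw [hi] at this
      simp [this, hy, (ψB (x.2 i)).2]
  rw [pairing]
  symm
  refine Finset.sum_of_injOn F ?_ (fun x _ => mem_coe.mpr (mem_univ _)) ?_ ?_
  · intro x _ y _ hxy
    refine Prod.ext (Equiv.ext fun i => ψA.injective (Subtype.ext ?_))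
      (Equiv.ext fun i => ψB.injective (Subtype.ext ?_))
    · rw [← hFl x i, ← hFl y i, hxy]
    · rw [← hFr x i, ← hFr y i, hxy]
  · intro σ _ hσ
    rw [dif_neg, mul_zero]
    intro h
    refine hσ ⟨(ψA.symm.permCongr (σ.subtypePerm h),
      ψB.symm.permCongr (σ.subtypePerm fun y => not_congr (h y))), mem_coe.mpr (mem_univ _),
      Equiv.ext fun y => ?_⟩
    by_cases hy : y ∈ P
    · obtain ⟨i, hi⟩ := ψA.surjective ⟨y, hy⟩
      have e : y = ψA i := by rw [hi]
      rw [e, hFl]
      simp [Equiv.permCongr_apply, Perm.subtypePerm_apply]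
    · obtain ⟨i, hi⟩ := ψB.surjective ⟨y, hy⟩
      have e : y = ψB i := by rw [hi]
      rw [e, hFr]
      simp [Equiv.permCongr_apply, Perm.subtypePerm_apply]
  · intro x _
    rw [dif_pos (hstab x)]
    have e1 : (F x).subtypePerm (hstab x) = ψA.permCongr x.1 := by
      ext y
      obtain ⟨i, rfl⟩ := ψA.surjective y
      simp [Equiv.permCongr_apply, Perm.subtypePerm_apply, hFl]
    have e2 : (F x).subtypePerm (fun y => not_congr (hstab x y)) = ψB.permCongr x.2 := by
      ext y
      obtain ⟨i, rfl⟩ := ψB.surjective y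
      simp [Equiv.permCongr_apply, Perm.subtypePerm_apply, hFr]
    rw [e1, e2, chi_permCongr, chi_permCongr]
    simp only [F, chi_permCongr]
    ring

/-- Pairing with a single colouring vector. -/
lemma inner_eq {ka N : ℕ} {A : Fin N → ℤ} (hA : IsBeta ka A) (g : Fin N → ℤ)
    (hsum : ∑ i, g i = ∑ i, A i)
    (hne : ∑ π : Perm (Fin ka), chi g π * chi A π ≠ 0) :
    ∃ w : Perm (Fin N), ∀ i, g i = A (w i) := by
  classical
  have hpos : ∀ i, 0 ≤ g i := fun i => by
    by_contra hi
    exact hne (sum_eq_zero fun π _ => by rw [chi_eq_zero_of_neg g (not_le.mp hi), zero_mul])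
  have hinj : Function.Injective g := by
    by_contra hi
    exact hne (sum_eq_zero fun π _ => by rw [chi_eq_zero_of_not_injective g hi, zero_mul])
  set w := Tuple.sort fun i => -g i
  have hB : IsBeta ka (g ∘ w) := ⟨fun i j hij => by
      have h1 : -g (w i) ≤ -g (w j) := Tuple.monotone_sort (fun i => -g i) hij.le
      have h2 : g (w i) ≠ g (w j) := fun h => hij.ne (w.injective (hinj h))
      show g (w j) < g (w i)
      omega,
    fun i => hpos _, (Equiv.sum_comp w g).trans (hsum.trans hA.total)⟩
  by_cases heq : g ∘ w = A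
  · exact ⟨w⁻¹, fun i => by rw [← heq]; simp⟩
  · exfalso
    have h := sum_chi_mul_chi (α := Fin ka) (a := g ∘ w) (b := A) (by simpa using hB)
      (by simpa using hA)
    rw [if_neg heq] at h
    simp only [chi_perm, mul_assoc, ← mul_sum] at h
    rcases mul_eq_zero.mp h with h | h
    · exact absurd h (by simp)
    · exact hne h

/-- The pairing is positive when one term survives. -/
theorem pairing_pos {ka kb N N₁ : ℕ} {A C : Fin N → ℤ} {B : Fin N₁ → ℤ} (hA : IsBeta ka A)
    (e₀ : Fin N → ℕ) (he₀ : ∑ i, e₀ i = kb) (hC : ∀ i, C i = A i + e₀ i)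
    (hkost : ∀ k : ℕ, ∀ e : Fin N → ℕ, k = N → ∑ i, e i = kb → kost N₁ N B e ≠ 0 →
      (∃ w : Perm (Fin N), ∀ i, C i - e i = A (w i)) → e = e₀)
    (hpos : 0 < kost N₁ N B e₀) :
    0 < pairing (ka := ka) (kb := kb) C A B := by
  classical
  let I : (Fin N → ℕ) → ℤ := fun e => ∑ π : Perm (Fin ka), chi (fun i => C i - e i) π * chi A π
  have hG : pairing (ka := ka) (kb := kb) C A B =
      ∑ g : Fin kb → Fin N, I (cnt g) * ∑ π ∈ stab g, chi B π := by
    simp only [pairing, Fintype.sum_prod_type, chi_sumCongr, fixedCol, sum_filter, sum_mul]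
    simp only [I, stab, sum_filter, sum_mul, mul_sum]
    rw [sum_congr rfl fun π _ => sum_comm]
    rw [sum_comm]
    refine sum_congr rfl fun g _ => ?_
    rw [sum_comm]
    refine sum_congr rfl fun π₂ _ => sum_congr rfl fun π₁ _ => ?_
    split_ifs <;> simp
  have hzero : ∀ g : Fin kb → Fin N, cnt g ≠ e₀ → I (cnt g) * ∑ π ∈ stab g, chi B π = 0 := by
    intro g hg
    by_contra hne
    obtain ⟨h1, h2⟩ := mul_ne_zero_iff.mp hne
    rw [sum_stab_chi] at h2
    have hcard : ∑ i, cnt g i = kb := (sum_cnt g).trans (Fintype.card_fin kb)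
    refine hg (hkost N (cnt g) rfl hcard (right_ne_zero_of_mul h2) ?_)
    refine inner_eq hA _ ?_ h1
    rw [sum_sub_distrib, sum_congr rfl fun i _ => hC i, sum_add_distrib]
    have : ((∑ i, cnt g i : ℕ) : ℤ) = ((∑ i, e₀ i : ℕ) : ℤ) := by rw [hcard, he₀]
    push_cast at this
    linarith
  have hI : I e₀ = ((ka.factorial : ℕ) : ℤ) := by
    have e : (fun i => C i - (e₀ i : ℤ)) = A := funext fun i => by rw [hC]; ring
    have h := sum_chi_mul_chi (α := Fin ka) (a := A) (b := A) (by simpa using hA)
      (by simpa using hA)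
    rw [if_pos rfl, Fintype.card_fin] at h
    simp only [I, e, h]
  rw [hG]
  refine sum_pos' (fun g _ => ?_) ?_
  · by_cases hg : cnt g = e₀
    · rw [hg, hI, sum_stab_chi, hg]
      positivity
    · rw [hzero g hg]
  · obtain ⟨g, hg⟩ := exists_cnt_eq (α := Fin kb) e₀ (by simpa using he₀)
    refine ⟨g, mem_univ _, ?_⟩
    rw [hg, hI, sum_stab_chi, hg]
    positivity

lemma perm_eq_of_strictAnti {N : ℕ} {A : Fin N → ℤ} {w : Perm (Fin N)}
    (hA : ∀ i j, i < j → A j < A i) (h : ∀ i j, i < j → A (w j) < A (w i)) : w = 1 := by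
  have hw : StrictMono w := fun i j hij => by
    rcases lt_trichotomy (w i) (w j) with h1 | h1 | h1
    · exact h1
    · exact absurd (w.injective h1) (ne_of_lt hij)
    · have := hA _ _ h1; have := h i j hij; omega
  refine Equiv.ext fun i => ?_
  simpa using congrFun (Subsingleton.elim (hw.orderIsoOfSurjective w w.surjective) (OrderIso.refl _) ▸
    rfl : (hw.orderIsoOfSurjective w w.surjective : Fin N → Fin N) = (OrderIso.refl (Fin N))) i

section Shapes

variable {ka kb : ℕ}

lemma isBeta_betaOf {k N : ℕ} (p : k.Partition) (hN : k ≤ N) : IsBeta k (betaOf N (row p)) := by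
  refine ⟨fun i j hij => ?_, fun i => ?_, ?_⟩
  · have h1 := delta_strictAnti hij
    have h2 := row_antitone p hij.le
    simp only [betaOf]
    omega
  · have := delta_nonneg i
    simp only [betaOf]
    omega
  · simp only [betaOf, sum_add_distrib]
    congr 1
    rw [← Nat.cast_sum, Fin.sum_univ_eq_sum_range (row p) N,
      ← sum_subset (range_subset_range.mpr hN) fun i _ hi =>
        row_eq_zero_of_le p (by simpa using hi), sum_range_row]

lemma chi_betaOf_row {k N : ℕ} (p : k.Partition) (hN : k ≤ N) {α : Type*} [Fintype α]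
    [DecidableEq α] (π : Perm α) : chi (betaOf N (row p)) π = chi (beta p) π := by
  rw [chi_betaOf hN fun i hi => row_eq_zero_of_le p hi]
  rfl

lemma pairing_beta {c : (ka + kb).Partition} (a : ka.Partition) (b : kb.Partition) :
    pairing (ka := ka) (kb := kb) (beta c) (betaOf (ka + kb) (row a)) (betaOf (ka + kb) (row b)) =
      pairing (ka := ka) (kb := kb) (beta c) (beta a) (beta b) := by
  unfold pairing
  simp only [chi_betaOf_row a (Nat.le_add_right ka kb), chi_betaOf_row b (Nat.le_add_left kb ka)]

theorem pairing_addP_pos (a : ka.Partition) (b : kb.Partition) :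
    0 < pairing (ka := ka) (kb := kb) (beta (addP a b)) (beta a) (beta b) := by
  rw [← pairing_beta]
  set N := ka + kb
  set A := betaOf N (row a)
  set B := betaOf N (row b)
  have hA : IsBeta ka A := isBeta_betaOf a (Nat.le_add_right ka kb)
  have hB : IsBeta kb B := isBeta_betaOf b (Nat.le_add_left kb ka)
  let e₀ : Fin N → ℕ := fun i => row b i
  have he₀ : ∑ i, e₀ i = kb := by
    have := hB.total
    simp only [B, betaOf, sum_add_distrib] at this
    zify
    simp only [e₀]
    linarith
  refine pairing_pos hA e₀ he₀ (fun i => ?_) (fun _ e _ he hk ⟨w, hw⟩ => ?_) ?_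
  · simp only [beta, A, betaOf, row_addP, e₀]
    push_cast
    ring
  · have hdom := (kost_ne_zero N B e hB he hk).2
    have hanti : Antitone A := fun i j h => by
      rcases eq_or_lt_of_le h with rfl | hlt
      · exact le_rfl
      · exact (hA.anti i j hlt).le
    have heq : ∀ j, pre j (fun i => A (w i)) = pre j A := by
      intro j
      refine le_antisymm ?_ ?_
      · have hm : Monovary (fun i : Fin N => if (i : ℕ) < j then (1 : ℤ) else 0) A := by
          intro x y hxy
          simp only
          have : (y : ℕ) < x := by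
            by_contra hc
            exact absurd (hanti (show x ≤ y from not_lt.mp hc)) (not_le.mpr hxy)
          split_ifs <;> omega
        have := hm.sum_mul_comp_perm_le_sum_mul (σ := w)
        simpa [pre, ite_mul] using this
      · have h1 := hdom j
        have e1 : pre j (fun i => A (w i)) + pre j (fun i => (e i : ℤ)) =
            pre j (fun i => beta (addP a b) i) := by
          simp only [pre, ← sum_add_distrib]
          exact sum_congr rfl fun i _ => by
            split_ifs
            · rw [← hw i]; ring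
            · ring
        have e2 : pre j A + pre j (fun i => B i - delta N i) =
            pre j (fun i => beta (addP a b) i) := by
          simp only [pre, ← sum_add_distrib]
          exact sum_congr rfl fun i _ => by
            split_ifs
            · simp only [beta, A, B, betaOf, row_addP]; push_cast; ring
            · ring
        linarith
    have hval : ∀ i, A (w i) = A i := by
      intro i
      have step : ∀ f : Fin N → ℤ, pre ((i : ℕ) + 1) f - pre i f = f i := by
        intro f
        simp only [pre, ← sum_sub_distrib]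
        rw [sum_eq_single i]
        · simp
        · intro x _ hx
          have : (x : ℕ) ≠ i := fun h => hx (Fin.ext h)
          split_ifs <;> omega
        · simp
      have h1 := step fun i => A (w i)
      have h2 := step A
      rw [heq, heq] at h1
      linarith
    funext i
    have h1 := hw i
    rw [hval] at h1
    simp only [beta, A, betaOf, row_addP] at h1
    push_cast at h1
    have : delta N i = delta (ka + kb) i := rfl
    simp only [e₀]
    omega
  · rw [show kost N N B e₀ = 1 from kost_diag N le_rfl B e₀ hB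
      (fun i hi => absurd i.isLt (not_lt.mpr hi)) (fun i => by simp [B, betaOf, e₀])]
    norm_num

/-- Adding a single box to `a`. -/
theorem pairing_box_pos (a : ka.Partition) (b : (1 : ℕ).Partition) (c : (ka + 1).Partition)
    (hc : ∀ i, row a i ≤ row c i) :
    0 < pairing (ka := ka) (kb := 1) (beta c) (beta a) (beta b) := by
  rw [← pairing_beta]
  set A := betaOf (ka + 1) (row a)
  set B := betaOf (ka + 1) (row b)
  have hA : IsBeta ka A := isBeta_betaOf a (Nat.le_add_right ka 1)
  have hB : IsBeta 1 B := isBeta_betaOf b (Nat.le_add_left 1 ka)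
  let e₀ : Fin (ka + 1) → ℕ := fun i => row c i - row a i
  have hcast : ∀ i : Fin (ka + 1), (e₀ i : ℤ) = (row c i : ℤ) - row a i := fun i => by
    have := hc i
    simp only [e₀]
    omega
  have hkost : ∀ e : Fin (ka + 1) → ℕ, ∑ i, e i = 1 → kost (ka + 1) (ka + 1) B e = 1 := by
    intro e he
    obtain ⟨j, hj⟩ : ∃ j, 0 < e j := by
      by_contra hno
      push Not at hno
      rw [sum_eq_zero fun i _ => Nat.le_zero.mp (hno i)] at he
      omega
    have h1 : ∀ i, i ≠ j → e i = 0 := fun i hi => by
      have := sum_le_sum_of_subset (f := e) (subset_univ {i, j})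
      rw [Finset.sum_pair hi, he] at this
      omega
    rw [← kost_comp_perm B e he (Equiv.swap ⟨0, by omega⟩ j)]
    have hb : row b 0 = 1 := by simpa using sum_range_row b
    refine kost_diag (ka + 1) le_rfl B _ hB (fun i hi => absurd i.isLt (not_lt.mpr hi)) fun i => ?_
    simp only [B, betaOf, Function.comp_apply, Fin.castLE_rfl, id, add_sub_cancel_right]
    rcases eq_or_ne i ⟨0, by omega⟩ with rfl | hi
    · rw [Equiv.swap_apply_left, hb]
      have := single_le_sum (f := e) (fun _ _ => Nat.zero_le _) (mem_univ j)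
      omega
    · have hi0 : (i : ℕ) ≠ 0 := fun h => hi (Fin.ext h)
      rw [row_eq_zero_of_le b (by omega : 1 ≤ (i : ℕ)), h1]
      intro h
      exact hi ((Equiv.swap _ j).injective (h.trans (Equiv.swap_apply_left _ j).symm))
  have he₀ : ∑ i, e₀ i = 1 := by
    have h1 := (isBeta_beta c).total
    have h2 := hA.total
    simp only [beta, A, betaOf, sum_add_distrib] at h1 h2
    zify
    rw [sum_congr rfl fun i _ => hcast i, sum_sub_distrib]
    push_cast at h1
    linarith
  refine pairing_pos hA e₀ he₀ (fun i => ?_) (fun _ e _ he hk ⟨w, hw⟩ => ?_) ?_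
  · simp only [beta, A, betaOf, hcast]
    ring
  · have hb := (isBeta_beta c).anti
    have hw1 : w = 1 := by
      refine perm_eq_of_strictAnti hA.anti fun i j hij => ?_
      have h1 := hw i
      have h2 := hw j
      have h3 := hb i j hij
      have h4 : A (w i) ≠ A (w j) := fun h => by
        rcases lt_trichotomy (w i) (w j) with hl | hl | hl
        · have := hA.anti _ _ hl; omega
        · exact absurd (w.injective hl) (ne_of_lt hij)
        · have := hA.anti _ _ hl; omega
      have h5 : e i + e j ≤ 1 := by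
        have := sum_le_sum_of_subset (f := e) (subset_univ {i, j})
        rwa [Finset.sum_pair (ne_of_lt hij), he] at this
      omega
    funext i
    have h1 := hw i
    rw [hw1] at h1
    simp only [Perm.one_apply, beta, A, betaOf] at h1
    have := hcast i
    omega
  · rw [hkost e₀ he₀]
    norm_num

lemma pairing_conj {c : (ka + kb).Partition} (a : ka.Partition) (b : kb.Partition) :
    pairing (ka := ka) (kb := kb) (beta (conjP c)) (beta (conjP a)) (beta (conjP b)) =
      pairing (ka := ka) (kb := kb) (beta c) (beta a) (beta b) := by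
  refine sum_congr rfl fun x _ => ?_
  rw [chi_conjP, chi_conjP,
    ← chi_permCongr (beta (conjP c)) (finSumFinEquiv (m := ka) (n := kb)), chi_conjP,
    chi_permCongr, Perm.sign_permCongr, Perm.sign_sumCongr]
  rcases Int.units_eq_one_or (Perm.sign x.1) with h1 | h1 <;>
    rcases Int.units_eq_one_or (Perm.sign x.2) with h2 | h2 <;> rw [h1, h2] <;> simp

theorem pairing_unionP_pos (a : ka.Partition) (b : kb.Partition) :
    0 < pairing (ka := ka) (kb := kb) (beta (unionP a b)) (beta a) (beta b) := by
  have := pairing_conj (c := addP (conjP a) (conjP b)) (conjP a) (conjP b)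
  rw [conjP_conjP, conjP_conjP] at this
  rw [unionP, this]
  exact pairing_addP_pos _ _

/-- The pairing detects a constituent of the induced product. -/
theorem sum_ne_zero_of_pairing {c : (ka + kb).Partition} (a : ka.Partition) (b : kb.Partition)
    (h : 0 < pairing (ka := ka) (kb := kb) (beta c) (beta a) (beta b)) :
    ∑ σ : Perm (Fin (ka + kb)), chi (beta c) σ * splitSum (beta a) (beta b) σ ≠ 0 := by
  rw [sum_mul_splitSum _ _ (isBeta_beta a)]
  refine mul_ne_zero ?_ h.ne'
  rw [Nat.cast_ne_zero, ← Nat.pos_iff_ne_zero, card_pos]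
  obtain ⟨P, -, hP⟩ := exists_subset_card_eq (s := (univ : Finset (Fin (ka + kb)))) (n := ka)
    (by simp)
  exact ⟨P, by simp [hP]⟩

end Shapes

end Vale.Agent.P197.Extreme
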