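import Vale.Agent.P197.SymChar.Dominance
import Vale.Agent.P197.Staircase.Partition

/-!
# Extreme quotients give partitions comparable with the staircase

If nearly all of the `2`-weight sits in the first row (column) of one runner, then `ν` dominates
(is dominated by) the staircase.
-/

open Finset Equiv

namespace Vale.Agent.P197.Extreme

open SymChar Littlewood

lemma sum_stair (m j : ℕ) : ∑ i ∈ range j, (m - i) + tri (m - j) = tri m := by
  induction j with
  | zero => simp
  | succ j ih =>
    rw [sum_range_succ]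
    rcases lt_or_ge j m with h | h
    · obtain ⟨q, hq⟩ : ∃ q, m - j = q + 1 := ⟨m - j - 1, by omega⟩
      rw [show m - (j + 1) = q by omega, hq]
      rw [hq] at ih
      have h1 := two_mul_tri q
      have h2 := two_mul_tri (q + 1)
      nlinarith
    · rw [show m - (j + 1) = m - j by omega, show m - j = 0 by omega] at *
      simpa using ih

/-- Among sets of a given size the first values of an antitone function have the largest sum. -/
lemma sum_le_pre {n : ℕ} {f : Fin n → ℤ} (hf : Antitone f) (S : Finset (Fin n)) :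
    ∑ x ∈ S, f x ≤ pre #S f := by
  rcases Nat.eq_zero_or_pos #S with h0 | h0
  · rw [card_eq_zero.mp h0]; simp [pre]
  have hle : #S ≤ n := (card_le_univ S).trans_eq (Fintype.card_fin n)
  set θ := f ⟨#S - 1, by omega⟩
  have h1 : ∑ x ∈ S, (f x - θ) ≤ ∑ x : Fin n, if (x : ℕ) < #S then f x - θ else 0 := by
    calc ∑ x ∈ S, (f x - θ) ≤ ∑ x ∈ S, (if (x : ℕ) < #S then f x - θ else 0) := by
          refine sum_le_sum fun x _ => ?_
          split_ifs with h
          · exact le_rfl
          · have : f x ≤ θ := hf (by simp [Fin.le_def]; omega)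
            omega
      _ ≤ _ := by
          refine sum_le_sum_of_subset_of_nonneg (subset_univ _) fun x _ _ => ?_
          split_ifs with h
          · have : θ ≤ f x := hf (by simp [Fin.le_def]; omega)
            omega
          · exact le_rfl
  have h2 : ∑ x : Fin n, (if (x : ℕ) < #S then (1 : ℤ) else 0) = #S := by
    rw [Finset.sum_boole]
    have : (univ.filter fun x : Fin n => (x : ℕ) < #S) = univ.map (Fin.castLEEmb hle) := by
      ext x
      simp only [mem_filter, mem_univ, true_and, mem_map, Fin.castLEEmb_apply]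
      exact ⟨fun h => ⟨⟨x, h⟩, Fin.ext rfl⟩, fun ⟨y, hy⟩ => by rw [← hy]; exact y.isLt⟩
    rw [this, card_map]
    simp
  have h3 : ∑ x : Fin n, (if (x : ℕ) < #S then f x - θ else 0) = pre #S f - θ * #S := by
    rw [← h2, mul_sum, pre, ← sum_sub_distrib]
    exact sum_congr rfl fun x _ => by split_ifs <;> ring
  rw [h3, sum_sub_distrib, sum_const, nsmul_eq_mul] at h1
  linarith

lemma stairBeta_antitone (N d : ℕ) : Antitone (stairBeta N d) := fun i j h => by
  have : (i : ℕ) ≤ j := h
  simp only [stairBeta, delta]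
  omega

lemma pre_stairBeta {n d j : ℕ} (hd : d ≤ n) :
    pre j (stairBeta n d) = ((∑ i ∈ range j, (d - i) : ℕ) : ℤ) + pre j (delta n) := by
  have h1 : ∀ j, pre j (fun i : Fin n => ((d - (i : ℕ) : ℕ) : ℤ))
      = ((∑ i ∈ range j, (d - i) : ℕ) : ℤ) := by
    intro j
    rcases le_or_gt j n with hj | hj
    · rw [pre, Fin.sum_univ_eq_sum_range (fun i => if i < j then ((d - i : ℕ) : ℤ) else 0) n,
        ← sum_filter, show (range n).filter (fun i => i < j) = range j by ext; simp; omega]
      push_cast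
      rfl
    · rw [pre_all hj.le, Fin.sum_univ_eq_sum_range (fun i => ((d - i : ℕ) : ℤ)) n,
        ← Nat.cast_sum, Nat.cast_inj]
      refine sum_subset (range_subset_range.mpr hj.le) fun i _ hi => ?_
      simp only [mem_range] at hi
      omega
  rw [← h1]
  simp only [pre, stairBeta, ← sum_add_distrib]
  exact sum_congr rfl fun i _ => by split_ifs <;> simp

lemma pre_beta_eq {n : ℕ} (v : n.Partition) (j : ℕ) :
    pre j (beta v) = ((∑ i ∈ range j, row v i : ℕ) : ℤ) + pre j (delta n) := by
  rw [← pre_row]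
  simp only [pre, ← sum_add_distrib]
  exact sum_congr rfl fun i _ => by split_ifs <;> simp [beta]

/-- The numerical setting: `n = N_m = 2 k + N_d` with `m - d` one of `4 K - 1, 4 K, 4 K + 1`. -/
structure Setup (n m d k K : ℕ) : Prop where
  hn : n = tri m
  hk : n = 2 * k + tri d
  hdm : d ≤ m
  hK : 1 ≤ K
  hlo : 4 * K ≤ m - d + 1
  hhi : m - d ≤ 4 * K + 1

lemma Setup.arith {n m d k K : ℕ} (h : Setup n m d k K) :
    ∃ l, m = d + l ∧ 4 * K ≤ l + 1 ∧ 3 ≤ l ∧ 4 * k = 2 * d * l + l * (l + 1) ∧ d + 2 ≤ n := by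
  obtain ⟨l, hl⟩ : ∃ l, m = d + l := ⟨m - d, by have := h.hdm; omega⟩
  have h1 := two_mul_tri m
  have h2 := two_mul_tri d
  have h3 := h.hn
  have h4 := h.hk
  have h5 := h.hlo
  have h6 := h.hK
  have h7 := le_tri m
  refine ⟨l, hl, by omega, by omega, ?_, by omega⟩
  subst hl
  nlinarith

section Bounds

variable {n d : ℕ} {v : n.Partition} {core : Fin n → ℤ} {w : Perm (Fin n)}

/-- Replacing the last of the top core beads by a far-moved bead. -/
lemma lower_bound (hd : d ≤ n) (hw : core = stairBeta n d ∘ w)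
    (hge : ∀ x, core x ≤ beta v x) {x : Fin n} {e : ℕ} (hx : core x + 2 * e ≤ beta v x)
    (htop : (n : ℤ) ≤ core x + d + 2) {j : ℕ} (hj : 1 ≤ j) (hjd : j ≤ d + 1) (hjn : j ≤ n) :
    ((∑ i ∈ range j, (d - i) : ℕ) : ℤ) + 2 * e - (2 * d - 2 * j + 3) ≤
      ((∑ i ∈ range j, row v i : ℕ) : ℤ) := by
  classical
  set P : Finset (Fin n) := univ.filter fun y => (w y : ℕ) < j with hP
  have hPc : #P = j := by
    rw [hP, card_equiv w (t := univ.map (Fin.castLEEmb hjn))]
    · simp
    · intro y
      simp only [mem_filter, mem_univ, true_and, mem_map, Fin.castLEEmb_apply]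
      exact ⟨fun h => ⟨⟨w y, h⟩, Fin.ext rfl⟩, fun ⟨z, hz⟩ => by rw [← hz]; exact z.isLt⟩
  have hPs : ∑ y ∈ P, core y = pre j (stairBeta n d) := by
    rw [hP, sum_filter, pre]
    refine Eq.trans ?_ (Equiv.sum_comp w fun i : Fin n => if (i : ℕ) < j then stairBeta n d i else 0)
    exact sum_congr rfl fun y _ => by rw [hw]; rfl
  have hanti : Antitone (beta v) := fun a b hab => by
    rcases eq_or_lt_of_le hab with rfl | hlt
    · exact le_rfl
    · exact ((isBeta_beta v).anti a b hlt).le
  have hfin : ∀ S : Finset (Fin n), x ∈ S → #S = j →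
      pre j (stairBeta n d) - (2 * (d : ℤ) - 2 * j + 3) ≤ ∑ y ∈ S, core y →
      ((∑ i ∈ range j, (d - i) : ℕ) : ℤ) + 2 * e - (2 * d - 2 * j + 3) ≤
        ((∑ i ∈ range j, row v i : ℕ) : ℤ) := by
    intro S hxS hSc hS
    have h1 := sum_le_pre hanti S
    rw [hSc, pre_beta_eq] at h1
    have h2 : ∑ y ∈ S, core y + 2 * e ≤ ∑ y ∈ S, beta v y := by
      rw [← add_sum_erase S core hxS, ← add_sum_erase S (beta v) hxS]
      have := sum_le_sum fun y (_ : y ∈ S.erase x) => hge y
      linarith
    rw [pre_stairBeta hd] at hS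
    linarith
  by_cases hxP : x ∈ P
  · refine hfin P hxP hPc ?_
    rw [hPs]
    omega
  · set y0 := w.symm ⟨j - 1, by omega⟩ with hy0
    have hy0P : y0 ∈ P := by simp [hP, hy0]; omega
    refine hfin (insert x (P.erase y0)) (mem_insert_self _ _) ?_ ?_
    · rw [card_insert_of_notMem fun h => hxP (mem_of_mem_erase h), card_erase_of_mem hy0P, hPc]
      omega
    · rw [sum_insert fun h => hxP (mem_of_mem_erase h), sum_erase_eq_sub hy0P, hPs]
      have : core y0 ≤ (n : ℤ) + d - 1 - 2 * (j - 1 : ℕ) := by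
        rw [hw]
        simp only [Function.comp_apply, hy0, Equiv.apply_symm_apply, stairBeta, delta]
        omega
      omega

/-- The top beads of `ν` against the top core beads. -/
lemma upper_bound (hd : d ≤ n) (hw : core = stairBeta n d ∘ w) {E : ℕ}
    (hex : ∀ S : Finset (Fin n), ∑ x ∈ S, (beta v x - core x) ≤ 2 * #S + 2 * E) {j : ℕ}
    (hjn : j ≤ n) :
    ((∑ i ∈ range j, row v i : ℕ) : ℤ) ≤
      ((∑ i ∈ range j, (d - i) : ℕ) : ℤ) + 2 * j + 2 * E := by
  classical
  set S : Finset (Fin n) := univ.map (Fin.castLEEmb hjn)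
  have hSc : #S = j := by simp [S]
  have hSmem : ∀ y, y ∈ S ↔ (y : ℕ) < j := fun y => by
    simp only [S, mem_map, mem_univ, true_and, Fin.castLEEmb_apply]
    exact ⟨fun ⟨z, hz⟩ => by rw [← hz]; exact z.isLt, fun h => ⟨⟨y, h⟩, Fin.ext rfl⟩⟩
  have h1 : ∑ y ∈ S, beta v y = pre j (beta v) := by
    rw [pre, ← sum_filter]
    exact sum_congr (by ext y; simp [hSmem]) fun _ _ => rfl
  have h2 : ∑ y ∈ S, core y ≤ pre j (stairBeta n d) := by
    have := sum_le_pre (stairBeta_antitone n d) (S.map w.toEmbedding)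
    rw [card_map, hSc, sum_map] at this
    refine le_trans (le_of_eq (sum_congr rfl fun y _ => ?_)) this
    rw [hw]; rfl
  have h3 := hex S
  rw [sum_sub_distrib, hSc, h1, pre_beta_eq] at h3
  rw [pre_stairBeta hd] at h2
  linarith

end Bounds

section Main

variable {n m d k K : ℕ} {r v : n.Partition} {core : Fin n → ℤ} {w : Perm (Fin n)}

lemma row_pos_of_rest (v : n.Partition) {j : ℕ} (h : ∑ i ∈ range (j + 1), row v i < n) :
    1 ≤ row v j := by
  by_contra h0
  have h1 : ∀ i, j ≤ i → row v i = 0 := fun i hi => by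
    have := row_antitone v hi
    omega
  rcases le_or_gt n (j + 1) with hjn | hjn
  · have := sum_range_row v
    have h2 : ∑ i ∈ range n, row v i ≤ ∑ i ∈ range (j + 1), row v i :=
      sum_le_sum_of_subset (range_subset_range.mpr hjn)
    omega
  · have h2 := sum_range_row v
    rw [← sum_subset (range_subset_range.mpr hjn.le) fun i _ hi => h1 i (by
      simp only [mem_range] at hi; omega)] at h2
    omega

/-- Almost all weight in one long row: `ν` dominates the staircase. -/
theorem dominates_of_long_row (hr : ∀ i, row r i = m - i) (hS : Setup n m d k K)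
    (hw : core = stairBeta n d ∘ w) (hge : ∀ x, core x ≤ beta v x) {x : Fin n} {e : ℕ}
    (hx : core x + 2 * e ≤ beta v x) (htop : (n : ℤ) ≤ core x + d + 2)
    (he : k + 1 ≤ e + K) : Dominates v r := by
  obtain ⟨l, rfl, hlK, hl3, h4k, hdn⟩ := hS.arith
  intro j
  simp only [hr]
  have hnm := hS.hn
  have hkn := hS.hk
  have hst := sum_stair (d + l) j
  rcases Nat.eq_zero_or_pos j with rfl | hj
  · simp
  have htl := two_mul_tri l
  rcases le_or_gt j d with hjd | hjd
  · have h1 := lower_bound (by omega) hw hge hx htop hj (by omega) (by omega)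
    have h2 := sum_stair d j
    have h3 := two_mul_tri (d + l - j)
    have h4 := two_mul_tri (d - j)
    have h5 := two_mul_tri d
    have h6 := two_mul_tri (d + l)
    obtain ⟨u, rfl⟩ : ∃ u, d = j + u := ⟨d - j, by omega⟩
    rw [show j + u + l - j = u + l by omega] at h3 hst
    rw [show j + u - j = u by omega] at h4 h2
    zify at h2 h3 h4 h5 h6 hst h4k hnm hlK he hl3 ⊢
    push_cast at h1 ⊢
    nlinarith [mul_nonneg (by omega : (0 : ℤ) ≤ (u : ℤ)) (by omega : (0 : ℤ) ≤ (l : ℤ) - 2)]
  · have h1 := lower_bound (by omega) hw hge hx htop (j := d + 1) (by omega) le_rfl (by omega)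
    have h2 := sum_stair d (d + 1)
    rw [show d - (d + 1) = 0 by omega, show tri 0 = 0 from rfl, add_zero] at h2
    have hbase : n + 1 ≤ ∑ i ∈ range (d + 1), row v i + 2 * K := by
      zify at he hkn ⊢
      rw [h2] at h1
      push_cast at h1 ⊢
      omega
    have hgrow : ∀ t, n ≤ ∑ i ∈ range (d + 1 + t), row v i ∨
        n + 1 + t ≤ ∑ i ∈ range (d + 1 + t), row v i + 2 * K := by
      intro t
      induction t with
      | zero => exact Or.inr (by simpa using hbase)
      | succ t ih =>
        rw [← add_assoc, sum_range_succ]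
        rcases ih with h | h
        · exact Or.inl (by omega)
        · by_cases hc : n ≤ ∑ i ∈ range (d + 1 + t), row v i + row v (d + 1 + t)
          · exact Or.inl hc
          · have := row_pos_of_rest v (j := d + 1 + t) (by rw [sum_range_succ]; omega)
            exact Or.inr (by omega)
    obtain ⟨t, rfl⟩ : ∃ t, j = d + 1 + t := ⟨j - d - 1, by omega⟩
    have h7 : ∑ i ∈ range (d + 1 + t), (d + l - i) ≤ n := by omega
    rcases hgrow t with h | h
    · omega
    · by_cases hu : t + 1 ≤ l
      · have h8 := le_tri (d + l - (d + 1 + t))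
        have h9 := two_mul_tri (d + l - (d + 1 + t))
        have h10 : 2 * K ≤ tri (d + l - (d + 1 + t)) + t + 1 := by omega
        omega
      · omega

/-- Almost all weight in one long column: the staircase dominates `ν`. -/
theorem dominated_of_long_col (hr : ∀ i, row r i = m - i) (hS : Setup n m d k K)
    (hw : core = stairBeta n d ∘ w) {E : ℕ}
    (hex : ∀ S : Finset (Fin n), ∑ x ∈ S, (beta v x - core x) ≤ 2 * #S + 2 * E) (hE : E < K) :
    Dominates r v := by
  obtain ⟨l, rfl, hlK, hl3, h4k, hdn⟩ := hS.arith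
  intro j
  simp only [hr]
  have hnm := hS.hn
  have hkn := hS.hk
  have hst := sum_stair (d + l) j
  rcases Nat.eq_zero_or_pos j with rfl | hj
  · simp
  by_cases hjm : d + l ≤ j
  · rw [show d + l - j = 0 by omega, show tri 0 = 0 from rfl, add_zero] at hst
    rw [hst, ← hnm]
    rcases le_or_gt j n with h | h
    · calc ∑ i ∈ range j, row v i ≤ ∑ i ∈ range n, row v i :=
            sum_le_sum_of_subset (range_subset_range.mpr h)
        _ = n := sum_range_row v
    · rw [← sum_subset (range_subset_range.mpr h.le) fun i _ hi =>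
        row_eq_zero_of_le v (by simpa using hi), sum_range_row]
  have h1 := upper_bound (by omega) hw hex (j := j) (by
    have := le_tri (d + l); omega)
  have h2 := sum_stair d j
  have h3 := two_mul_tri (d + l - j)
  have h5 := two_mul_tri d
  have h6 := two_mul_tri (d + l)
  rcases le_or_gt j d with hjd | hjd
  · have h4 := two_mul_tri (d - j)
    obtain ⟨u, rfl⟩ : ∃ u, d = j + u := ⟨d - j, by omega⟩
    rw [show j + u + l - j = u + l by omega] at h3 hst
    rw [show j + u - j = u by omega] at h4 h2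
    zify at h2 h3 h4 h5 h6 hst hlK hE hj hl3 ⊢
    push_cast at h1 ⊢
    nlinarith [mul_nonneg (by omega : (0 : ℤ) ≤ (j : ℤ) - 1) (by omega : (0 : ℤ) ≤ (l : ℤ) - 2)]
  · rw [show d - j = 0 by omega, show tri 0 = 0 from rfl, add_zero] at h2
    obtain ⟨t, rfl⟩ : ∃ t, j = d + t := ⟨j - d, by omega⟩
    obtain ⟨s, rfl⟩ : ∃ s, l = t + 1 + s := ⟨l - t - 1, by omega⟩
    rw [show d + (t + 1 + s) - (d + t) = s + 1 by omega] at h3 hst
    zify at h2 h3 h5 h6 hst hlK hE hl3 ⊢
    push_cast at h1 ⊢
    nlinarith [mul_nonneg (by omega : (0 : ℤ) ≤ (d : ℤ)) (by omega : (0 : ℤ) ≤ (t : ℤ) + s - 1),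
      mul_nonneg (by omega : (0 : ℤ) ≤ (t : ℤ) - 1) (by omega : (0 : ℤ) ≤ (s : ℤ)),
      mul_nonneg (by omega : (0 : ℤ) ≤ (t : ℤ) - 1) (by omega : (0 : ℤ) ≤ (t : ℤ) + s - 2)]

end Main

end Vale.Agent.P197.Extreme
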