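import Vale.Agent.P197.SymChar.Conjugate
import Vale.Agent.P197.Staircase.Padding

/-!
# Partitions from row functions

`partOf` builds a partition from its row lengths, `betaOf N lam` its beta set of length `N`;
the character does not depend on `N`.
-/

open Finset Equiv

namespace Vale.Agent.P197.Extreme

open SymChar Littlewood

/-- Row lengths of a partition of `k`. -/
structure IsRows (k : ℕ) (lam : ℕ → ℕ) : Prop where
  anti : Antitone lam
  zero : ∀ i, k ≤ i → lam i = 0
  sum : ∑ i ∈ range k, lam i = k

/-- The partition with given row lengths. -/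
def partOf {k : ℕ} (lam : ℕ → ℕ) (h : IsRows k lam) : k.Partition :=
  Nat.Partition.ofSums k ((Multiset.range k).map lam) h.sum

theorem row_partOf {k : ℕ} {lam : ℕ → ℕ} (h : IsRows k lam) (i : ℕ) :
    row (partOf lam h) i = lam i := by
  set l := ((List.range k).map lam).filter (fun a => decide (a ≠ 0)) with hl
  have hpair : ((List.range k).map lam).Pairwise (· ≥ ·) :=
    List.pairwise_map.mpr (List.pairwise_lt_range.imp fun hab => h.anti hab.le)
  have hsort : (partOf lam h).parts.sort (· ≥ ·) = l := by
    refine List.Perm.eq_of_pairwise (le := (· ≥ ·)) (fun a b _ _ h h' => le_antisymm h' h)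
      (Multiset.pairwise_sort _ _) (hpair.filter _) (Multiset.coe_eq_coe.mp ?_)
    rw [Multiset.sort_eq]
    rfl
  set z := #((range k).filter fun i => 0 < lam i) with hz
  have hset : (range k).filter (fun i => 0 < lam i) = range z := by
    refine eq_of_subset_of_card_le (fun i hi => ?_) (by rw [card_range])
    rw [mem_range]
    simp only [mem_filter, mem_range] at hi
    have hsub : range (i + 1) ⊆ (range k).filter (fun i => 0 < lam i) := fun l hl => by
      simp only [mem_filter, mem_range] at hl ⊢
      have := h.anti (show l ≤ i by omega)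
      exact ⟨by omega, by omega⟩
    have := card_le_card hsub
    rw [card_range] at this
    omega
  have htake : l = (List.range z).map lam := by
    refine List.Perm.eq_of_pairwise (le := (· ≥ ·)) (fun a b _ _ h h' => le_antisymm h' h)
      (hpair.filter _) (List.pairwise_map.mpr
        (List.pairwise_lt_range.imp fun hab => h.anti hab.le)) (Multiset.coe_eq_coe.mp ?_)
    have := congrArg (fun s => Multiset.map lam s.val) hset
    simp only [filter_val, range_val, Multiset.map_coe, Multiset.range] at this
    rw [← this, hl, ← Multiset.filter_coe, ← Multiset.map_coe, Multiset.filter_map]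
    congr 1
    refine Multiset.filter_congr fun x _ => ?_
    simp [Nat.pos_iff_ne_zero]
  rw [row, hsort, htake]
  rcases lt_or_ge i z with hiz | hiz
  · rw [List.getD_eq_getElem _ _ (by simpa using hiz)]
    simp
  · rw [List.getD_eq_default _ _ (by simpa using hiz)]
    by_contra hne
    have hik : i < k := by
      by_contra hh
      exact hne (h.zero i (by omega)).symm
    have : i ∈ (range k).filter (fun i => 0 < lam i) :=
      mem_filter.mpr ⟨mem_range.mpr hik, by omega⟩
    rw [hset, mem_range] at this
    omega

/-- The beta set of length `N` of a row function. -/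
def betaOf (N : ℕ) (lam : ℕ → ℕ) : Fin N → ℤ := fun i => (lam i : ℤ) + delta N i

lemma pad_betaOf {N : ℕ} {lam : ℕ → ℕ} (h : lam N = 0) :
    pad (betaOf N lam) = betaOf (N + 1) lam := by
  funext i
  induction i using Fin.lastCases with
  | last => simp [pad, betaOf, delta, h]
  | cast i =>
    simp [pad, betaOf, delta]
    ring

lemma chi_betaOf {N M : ℕ} {lam : ℕ → ℕ} (hNM : N ≤ M) (h : ∀ i, N ≤ i → lam i = 0)
    {α : Type*} [Fintype α] [DecidableEq α] (π : Perm α) :
    chi (betaOf M lam) π = chi (betaOf N lam) π := by
  induction M, hNM using Nat.le_induction with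
  | base => rfl
  | succ M hM ih => rw [← pad_betaOf (h M hM), chi_pad, ih]

/-- The row lengths of a beta set. -/
def rowsOf {N : ℕ} (A : Fin N → ℤ) (i : ℕ) : ℕ :=
  if h : i < N then (A ⟨i, h⟩ - delta N ⟨i, h⟩).toNat else 0

section RowsOf

variable {N k : ℕ} {A : Fin N → ℤ}

lemma cast_rowsOf (hA : IsBeta k A) (i : Fin N) : (rowsOf A i : ℤ) = A i - delta N i := by
  have := hA.delta_le' i
  simp only [rowsOf, dif_pos i.isLt, Fin.eta]
  omega

lemma rowsOf_of_le {i : ℕ} (h : N ≤ i) : rowsOf A i = 0 := dif_neg (not_lt.mpr h)

lemma betaOf_rowsOf (hA : IsBeta k A) : betaOf N (rowsOf A) = A := by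
  funext i
  simp only [betaOf, cast_rowsOf hA]
  ring

lemma isRows_rowsOf (hA : IsBeta k A) : IsRows k (rowsOf A) := by
  have hanti : Antitone (rowsOf A) := by
    refine antitone_nat_of_succ_le fun i => ?_
    rcases lt_or_ge (i + 1) N with h | h
    · have h1 := cast_rowsOf hA ⟨i, by omega⟩
      have h2 := cast_rowsOf hA ⟨i + 1, h⟩
      have h3 := hA.anti ⟨i, by omega⟩ ⟨i + 1, h⟩ (by simp [Fin.lt_def])
      simp only [delta] at h1 h2
      push_cast at h2
      omega
    · rw [rowsOf_of_le h]; exact Nat.zero_le _
  have hN : ∑ i ∈ range N, rowsOf A i = k := by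
    zify
    rw [← Fin.sum_univ_eq_sum_range (fun i => (rowsOf A i : ℤ)) N,
      sum_congr rfl fun i _ => cast_rowsOf hA i, sum_sub_distrib, hA.total]
    ring
  have hsum : ∀ M, ∑ i ∈ range M, rowsOf A i ≤ k := by
    intro M
    rcases le_or_gt M N with h | h
    · exact (sum_le_sum_of_subset (range_subset_range.mpr h)).trans_eq hN
    · rw [← sum_subset (range_subset_range.mpr h.le) fun i _ hi => rowsOf_of_le (by simpa using hi),
        hN]
  have hzero : ∀ i, k ≤ i → rowsOf A i = 0 := by
    intro i hi
    by_contra hne
    have h1 : ∑ _l ∈ range (i + 1), 1 ≤ ∑ l ∈ range (i + 1), rowsOf A l :=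
      sum_le_sum fun l hl => by
        have := hanti (show l ≤ i by simp only [mem_range] at hl; omega)
        omega
    have := hsum (i + 1)
    simp at h1
    omega
  refine ⟨hanti, hzero, ?_⟩
  rcases le_total k N with h | h
  · exact (sum_subset (range_subset_range.mpr h) fun i _ hi =>
      hzero i (by simpa using hi)).trans hN
  · exact (sum_subset (range_subset_range.mpr h) fun i _ hi =>
      rowsOf_of_le (by simpa using hi)).symm.trans hN

/-- The partition of a beta set. -/
def shape (hA : IsBeta k A) : k.Partition := partOf (rowsOf A) (isRows_rowsOf hA)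

lemma row_shape (hA : IsBeta k A) (i : ℕ) : row (shape hA) i = rowsOf A i := row_partOf _ _

lemma chi_shape (hA : IsBeta k A) {α : Type*} [Fintype α] [DecidableEq α] (π : Perm α) :
    chi (beta (shape hA)) π = chi A π := by
  have e : beta (shape hA) = betaOf k (rowsOf A) := by
    funext i; simp [beta, betaOf, row_shape]
  rw [e]
  conv_rhs => rw [← betaOf_rowsOf hA]
  rcases le_total k N with h | h
  · exact (chi_betaOf h (isRows_rowsOf hA).zero π).symm
  · exact chi_betaOf h (fun i hi => rowsOf_of_le hi) π

end RowsOf

/-- Row-wise sum of two partitions. -/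
def addP {ka kb : ℕ} (a : ka.Partition) (b : kb.Partition) : (ka + kb).Partition :=
  partOf (fun i => row a i + row b i)
    ⟨fun _ _ h => Nat.add_le_add (row_antitone a h) (row_antitone b h),
      fun i hi => by rw [row_eq_zero_of_le a (by omega), row_eq_zero_of_le b (by omega)],
      by
        rw [sum_add_distrib]
        congr 1
        · exact (sum_subset (range_subset_range.mpr (Nat.le_add_right ka kb)) fun i _ hi =>
            row_eq_zero_of_le a (by simpa using hi)).symm.trans (sum_range_row a)
        · exact (sum_subset (range_subset_range.mpr (Nat.le_add_left kb ka)) fun i _ hi =>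
            row_eq_zero_of_le b (by simpa using hi)).symm.trans (sum_range_row b)⟩

lemma row_addP {ka kb : ℕ} (a : ka.Partition) (b : kb.Partition) (i : ℕ) :
    row (addP a b) i = row a i + row b i := row_partOf _ _

/-- Multiset union of two partitions. -/
def unionP {ka kb : ℕ} (a : ka.Partition) (b : kb.Partition) : (ka + kb).Partition :=
  conjP (addP (conjP a) (conjP b))

lemma colLen_zero_conjP {k : ℕ} (p : k.Partition) : colLen (conjP p) 0 = row p 0 := by
  rw [← row_conjP, conjP_conjP]

lemma colLen_addP {ka kb : ℕ} (a : ka.Partition) (b : kb.Partition) :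
    colLen (addP a b) 0 = max (colLen a 0) (colLen b 0) := by
  refine le_antisymm ?_ (max_le ?_ ?_) <;> by_contra hh
  · have h1 := (lt_colLen_iff (addP a b) _ 0).mp (not_le.mp hh)
    have ha := lt_colLen_iff a (max (colLen a 0) (colLen b 0)) 0
    have hb := lt_colLen_iff b (max (colLen a 0) (colLen b 0)) 0
    rw [row_addP] at h1
    omega
  · have h1 := (lt_colLen_iff a _ 0).mp (not_le.mp hh)
    have h2 := lt_colLen_iff (addP a b) (colLen (addP a b) 0) 0
    rw [row_addP] at h2
    omega
  · have h1 := (lt_colLen_iff b _ 0).mp (not_le.mp hh)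
    have h2 := lt_colLen_iff (addP a b) (colLen (addP a b) 0) 0
    rw [row_addP] at h2
    omega

lemma row_unionP {ka kb : ℕ} (a : ka.Partition) (b : kb.Partition) :
    row (unionP a b) 0 = max (row a 0) (row b 0) := by
  rw [unionP, row_conjP, colLen_addP, colLen_zero_conjP, colLen_zero_conjP]

lemma colLen_unionP {ka kb : ℕ} (a : ka.Partition) (b : kb.Partition) :
    colLen (unionP a b) 0 = colLen a 0 + colLen b 0 := by
  rw [unionP, colLen_zero_conjP, row_addP, row_conjP, row_conjP]

lemma hook_bound {k : ℕ} (p : k.Partition) : row p 0 + colLen p 0 ≤ k + 1 := by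
  rcases Nat.eq_zero_or_pos k with rfl | hk
  · simp [row_eq_zero_of_le p (le_refl 0), colLen_eq_zero_of_le p (le_refl 0)]
  have hL : colLen p 0 ≤ k := (card_le_card (filter_subset _ _)).trans_eq (card_range k)
  have h1 : row p 0 + ∑ i ∈ range (colLen p 0 - 1), row p (i + 1) ≤ k := by
    conv_rhs => rw [← sum_range_row p]
    rcases Nat.eq_zero_or_pos (colLen p 0) with h0 | h0
    · rw [h0]
      simp only [Nat.zero_sub, range_zero, sum_empty, add_zero]
      exact single_le_sum (fun _ _ => Nat.zero_le _) (mem_range.mpr hk)
    · refine le_trans (le_of_eq ?_) (sum_le_sum_of_subset (range_subset_range.mpr hL))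
      obtain ⟨L, hL'⟩ : ∃ L, colLen p 0 = L + 1 := ⟨colLen p 0 - 1, by omega⟩
      rw [hL', Nat.add_sub_cancel, sum_range_succ', add_comm]
  have h2 : ∑ _i ∈ range (colLen p 0 - 1), 1 ≤ ∑ i ∈ range (colLen p 0 - 1), row p (i + 1) :=
    sum_le_sum fun i hi => by
      have := (lt_colLen_iff p (i + 1) 0).mp (by simp only [mem_range] at hi; omega)
      omega
  simp at h2
  omega

lemma zero_lt_iff_pos {k : ℕ} (p : k.Partition) :
    (0 < k → 0 < row p 0 ∧ 0 < colLen p 0) ∧ row p 0 ≤ k ∧ colLen p 0 ≤ k := by
  refine ⟨fun hk => ?_, row_le_size p 0, (card_le_card (filter_subset _ _)).trans_eq (card_range k)⟩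
  have h : 0 < row p 0 := by
    by_contra h0
    have h1 : ∀ i ∈ range k, row p i = 0 := fun i _ => by
      have := row_antitone p (Nat.zero_le i)
      omega
    have := sum_range_row p
    rw [sum_eq_zero h1] at this
    omega
  exact ⟨h, (lt_colLen_iff p 0 0).mpr h⟩

end Vale.Agent.P197.Extreme
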